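import Vale.Agent.N107.Mor

/-!
# P107: integrated decay of the charge and decay of the local energy
-/

open MeasureTheory Set Filter Topology Metric
open scoped RealInnerProductSpace

noncomputable section

namespace Vale.Agent.N107

open P107

variable {T : ℝ} {f : ℝ → E3 → E3 → ℝ} {E B : ℝ → E3 → E3}

/-! ### three facts about real functions -/

theorem integrableOn_of_bound {A : ℝ → ℝ} {S : ℝ} (hc : ∀ b, 0 ≤ b → ContinuousOn A (Icc 0 b))
    (h0 : ∀ t, 0 ≤ t → 0 ≤ A t) (hS : ∀ b, 0 ≤ b → ∫ t in (0 : ℝ)..b, A t ≤ S) :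
    IntegrableOn A (Ioi 0) ∧ ∫ t in Ioi 0, A t ≤ S := by
  have hi : IntegrableOn A (Ioi 0) := by
    refine integrableOn_Ioi_of_intervalIntegral_norm_bounded (l := atTop)
      (b := fun n : ℕ => (n : ℝ)) S 0 (fun n => ?_) tendsto_natCast_atTop_atTop
      (Eventually.of_forall fun n => ?_)
    · exact ((hc n n.cast_nonneg).integrableOn_compact isCompact_Icc).mono_set Ioc_subset_Icc_self
    · refine le_trans (le_of_eq (intervalIntegral.integral_congr fun t ht => ?_))
        (hS n n.cast_nonneg)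
      rw [uIcc_of_le n.cast_nonneg] at ht
      exact Real.norm_of_nonneg (h0 t ht.1)
  exact ⟨hi, le_of_tendsto (intervalIntegral_tendsto_integral_Ioi 0 hi tendsto_id)
    ((eventually_ge_atTop 0).mono hS)⟩

theorem sq_le_of_forall {Q a b : ℝ} (hQ : 0 ≤ Q) (ha : 0 < a) (hb : 0 ≤ b)
    (h : ∀ l : ℝ, 0 < l → Q ≤ a * l + b / l) : Q ^ 2 ≤ 4 * a * b := by
  rcases hQ.eq_or_lt with rfl | hQ
  · rw [zero_pow two_ne_zero]
    positivity
  · have h1 := mul_le_mul_of_nonneg_right (h (Q / (2 * a)) (by positivity)) hQ.le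
    have e : (a * (Q / (2 * a)) + b / (Q / (2 * a))) * Q = Q ^ 2 / 2 + 2 * a * b := by
      field_simp
    nlinarith

theorem tendsto_zero_of_lip {L A : ℝ → ℝ} {K : ℝ} (hK : 0 ≤ K) (h0 : ∀ t, 0 < t → 0 ≤ L t)
    (hL : ∀ t s, 0 < t → t ≤ s → L t ≤ L s + K * (s - t)) (hA : IntegrableOn A (Ioi 0))
    (hLA : ∀ ε : ℝ, 0 < ε → ∃ C : ℝ, ∀ t, 0 < t → L t ≤ ε + C * A t) :
    Tendsto L atTop (𝓝 0) := by
  refine tendsto_order.2 ⟨fun c hc => (eventually_gt_atTop 0).mono fun t ht =>
    hc.trans_le (h0 t ht), fun c hc => ?_⟩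
  obtain ⟨C, hC⟩ := hLA (c / 3) (by positivity)
  set τ : ℝ := c / 3 / (K + 1) with hτ
  have hτ0 : 0 < τ := by positivity
  have hKτ : K * τ ≤ c / 3 := by
    rw [hτ, ← mul_div_assoc, div_le_iff₀ (by positivity)]
    nlinarith
  have hi : ∀ {t s : ℝ}, 0 ≤ t → t ≤ s → IntervalIntegrable A volume t s := fun ht hs =>
    (intervalIntegrable_iff_integrableOn_Ioc_of_le hs).2
      (hA.mono_set fun r hr => ht.trans_lt hr.1)
  have lim : Tendsto (fun t => C * ((∫ s in (0 : ℝ)..t + τ, A s) - ∫ s in (0 : ℝ)..t, A s)) atTop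
      (𝓝 (C * ((∫ s in Ioi 0, A s) - ∫ s in Ioi 0, A s))) :=
    ((intervalIntegral_tendsto_integral_Ioi 0 hA (tendsto_atTop_add_const_right _ τ tendsto_id)).sub
      (intervalIntegral_tendsto_integral_Ioi 0 hA tendsto_id)).const_mul C
  rw [sub_self, mul_zero] at lim
  filter_upwards [eventually_gt_atTop 0, lim.eventually (gt_mem_nhds
    (by positivity : 0 < τ * (c / 3)))] with t ht h1
  have htτ : t ≤ t + τ := by linarith
  rw [intervalIntegral.integral_interval_sub_left (hi le_rfl (ht.le.trans htτ)) (hi le_rfl ht.le),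
    ← intervalIntegral.integral_const_mul] at h1
  have h2 := intervalIntegral.integral_mono_on htτ (f := fun _ => L t - 2 * (c / 3))
    (g := fun s => C * A s) intervalIntegrable_const ((hi ht.le htτ).const_mul C) fun s hs => by
      have k1 := hL t s ht hs.1
      have k2 := hC s (ht.trans_le hs.1)
      have k3 : K * (s - t) ≤ K * τ := mul_le_mul_of_nonneg_left (by linarith [hs.2]) hK
      linarith
  rw [intervalIntegral.integral_const, smul_eq_mul, add_sub_cancel_left] at h2
  have := lt_of_mul_lt_mul_left (h2.trans_lt h1) hτ0.le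
  linarith

/-! ### the charge in a ball -/

theorem bal_mono (h : IsClassicalSolution T f E B) {t : ℝ} (ht : t ∈ Ico 0 T) {φ : E3 → ℝ}
    (hφ : Continuous φ) (h0 : ∀ v, 0 ≤ φ v) {c : ℝ} (hc : 0 ≤ c) (x₀ : E3) {R R' : ℝ}
    (hR : R ≤ R') : bal φ c x₀ R f E B t ≤ bal φ c x₀ R' f E B t :=
  setIntegral_mono_set
    ((continuous_den h ht hφ c).continuousOn.integrableOn_compact (isCompact_closedBall x₀ R'))
    (ae_of_all _ (den_nonneg h ht h0 hc)) (closedBall_subset_closedBall hR).eventuallyLE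

theorem fe_le_den (h : IsClassicalSolution T f E B) {t : ℝ} (ht : t ∈ Ico 0 T) (x : E3) :
    fe E B t x ≤ den kw 1 f E B t x := by
  have := den_nonneg h ht kw_nonneg le_rfl x
  simp only [den, zero_mul, add_zero, one_mul] at this ⊢
  linarith

/-- **The charge in a ball is controlled by the field energy in the double ball.** -/
theorem exists_charge_le : ∃ K : ℝ, 0 < K ∧ ∀ {T : ℝ} {f : ℝ → E3 → E3 → ℝ} {E B : ℝ → E3 → E3},
    IsClassicalSolution T f E B → ∀ t ∈ Ico 0 T, ∀ (x₀ : E3) (R : ℝ), 0 < R →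
      bal (fun _ => 1) 0 x₀ R f E B t ^ 2 ≤ K * R * bal kw 1 x₀ (2 * R) f E B t := by
  obtain ⟨C, hC, H⟩ := exists_cut
  have hV : 0 < (volume : Measure E3).real (closedBall 0 1) :=
    ENNReal.toReal_pos (measure_closedBall_pos _ _ one_pos).ne' measure_closedBall_lt_top.ne
  refine ⟨16 * C ^ 2 * (volume : Measure E3).real (closedBall 0 1), by positivity,
    fun {T f E B} h t ht x₀ R hR => ?_⟩
  obtain ⟨χ, hχ, hc, h0, -, h2, h3, hδ⟩ := H x₀ R hR
  have cE := (h.E_slice ht).continuous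
  have cD := continuous_den h ht continuous_kw 1
  have k1 := ball_le (continuous_den h ht (φ := fun _ => 1) continuous_const 0)
    (den_nonneg h ht (fun _ => zero_le_one) le_rfl) hχ.continuous hc h0 (x₀ := x₀) (R := R)
    (k := 1) fun x hx => (h2 x hx).ge
  have e : ∀ x, den (fun _ => 1) 0 f E B t x = rho f t x := fun x => by simp [den, rho]
  rw [one_mul] at k1
  have k2 : bal (fun _ => 1) 0 x₀ R f E B t ≤ ∫ x, -fderiv ℝ χ x (E t x) := by
    rw [integral_neg, ← charge_eq h hχ hc ht]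
    simpa only [bal, e] using k1
  have k3 := sq_le_of_forall (bal_nonneg h ht (fun _ => zero_le_one) le_rfl x₀ R)
    (a := C / R / 2 * ((2 * R) ^ 3 * (volume : Measure E3).real (closedBall 0 1)))
    (b := C / R * bal kw 1 x₀ (2 * R) f E B t) (by positivity)
    (mul_nonneg (by positivity) (bal_nonneg h ht kw_nonneg zero_le_one _ _)) fun l hl => by
      refine k2.trans ((le_ball (D := fun x => C / R / 2 * l + C / R / l * den kw 1 f E B t x)
        (by fun_prop) ((hχ.continuous_fderiv one_ne_zero).clm_apply cE).neg (x₀ := x₀)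
        (R := 2 * R) (fun x => ?_) fun x hx => by simp [(h3 x hx).2]).trans_eq ?_)
      · have a1 := (abs_le.1 (abs_form_le hδ x (E t x))).1
        have a2 : ‖E t x‖ ≤ l / 2 + den kw 1 f E B t x / l := by
          have := fe_le_den h ht x
          rw [← sub_le_iff_le_add', le_div_iff₀ hl]
          unfold fe at this
          nlinarith [sq_nonneg (‖E t x‖ - l), sq_nonneg ‖B t x‖]
        have a3 := mul_le_mul_of_nonneg_left a2 (by positivity : 0 ≤ C / R)
        calc -fderiv ℝ χ x (E t x) ≤ C / R * (l / 2 + den kw 1 f E B t x / l) := by linarith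
          _ = _ := by ring
      · have i : Integrable (fun _ : E3 => C / R / 2 * l)
            (volume.restrict (closedBall x₀ (2 * R))) :=
          continuousOn_const.integrableOn_compact (isCompact_closedBall _ _)
        rw [integral_add i ((cD.continuousOn.integrableOn_compact (isCompact_closedBall _ _)).const_mul _),
          integral_const_mul (C / R / l), setIntegral_const,
          Measure.addHaar_real_closedBall' _ _ (by positivity), finrank_euclideanSpace_fin,
          smul_eq_mul, bal]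
        ring
  refine k3.trans_eq ?_
  field_simp
  ring

/-! ### the energy in a ball -/

theorem den_q_le (h : IsClassicalSolution T f E B) {t : ℝ} (ht : t ∈ Ico 0 T) (x : E3) :
    den q 1 f E B t x ≤ den kw 1 f E B t x + den (fun _ => 1) 0 f E B t x := by
  obtain ⟨P, hP⟩ := h.exists_support ht
  have cf : Continuous (f t x) :=
    (h.f_slice ht).continuous.comp (f := fun v : E3 => (x, v)) (by fun_prop)
  have i : ∀ φ : E3 → ℝ, Continuous φ → Integrable fun v => φ v * f t x v := fun φ hφ =>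
    (hφ.mul cf).integrable_of_hasCompactSupport (HasCompactSupport.mul_left
      (HasCompactSupport.intro (isCompact_closedBall 0 P) fun v hv =>
        hP t ⟨ht.1, le_rfl⟩ (x, v) fun k => hv k.2))
  have k : ∫ v, q v * f t x v ≤ ∫ v, (kw v * f t x v + 1 * f t x v) :=
    integral_mono (i q continuous_q) ((i kw continuous_kw).add (i _ continuous_const)) fun v => by
      have a : q v ≤ kw v + 1 := by
        rw [kw, ← sub_le_iff_le_add, le_div_iff₀ (q_pos v)]
        nlinarith [q_sq v, one_le_q v]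
      have := mul_le_mul_of_nonneg_right a (h.f_nonneg t ht x v)
      simp only
      linarith
  rw [integral_add (i kw continuous_kw) (i _ continuous_const)] at k
  unfold den
  linarith

theorem loc_eq (h : IsClassicalSolution T f E B) {t : ℝ} (ht : t ∈ Ico 0 T) {χ : E3 → ℝ}
    (hχ : Continuous χ) (hc : HasCompactSupport χ) :
    loc χ f E B t = ∫ x, χ x * den q 1 f E B t x :=
  (integral_mul_den h ht hχ hc continuous_q).symm

theorem loc_le (h : IsClassicalSolution T f E B) {χ : E3 → ℝ} (hχ : ContDiff ℝ 1 χ)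
    (hc : HasCompactSupport χ) {δ : ℝ} (hδ : ∀ x, ‖fderiv ℝ χ x‖ ≤ δ) {t s : ℝ} (ht : 0 < t)
    (hts : t ≤ s) (hs : s < T) :
    loc χ f E B t ≤ loc χ f E B s + δ * energy0 f E B * (s - t) := by
  have hδ0 : 0 ≤ δ := (norm_nonneg _).trans (hδ 0)
  have hsub : ∀ r ∈ Icc t s, r ∈ Ioo 0 T := fun r hr => ⟨ht.trans_le hr.1, hr.2.trans_lt hs⟩
  have := (convex_Icc t s).norm_image_sub_le_of_norm_hasDerivWithin_le
    (fun r hr => (hasDerivAt_loc h hχ hc (hsub r hr)).hasDerivWithinAt)
    (C := δ * energy0 f E B) (fun r hr => ?_) ⟨hts, le_rfl⟩ ⟨le_rfl, hts⟩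
  · rw [Real.norm_eq_abs, Real.norm_eq_abs, abs_sub_comm t s,
      abs_of_nonneg (sub_nonneg.2 hts)] at this
    linarith [(abs_le.1 this).2]
  · have hr' := Ioo_subset_Ico_self (hsub r hr)
    have k1 := abs_kint_le h hr' (ψ := fun z => fderiv ℝ χ z.1 z.2)
      (((hχ.continuous_fderiv one_ne_zero).comp continuous_fst).clm_apply continuous_snd) (c := δ)
      fun z => (abs_form_le hδ _ _).trans (mul_le_mul_of_nonneg_left (norm_lt_q _).le hδ0)
    have k2 := abs_integral_le h hr' (G := fun x => fderiv ℝ χ x (cross (E r x) (B r x))) (c := δ)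
      fun x => (abs_form_le hδ _ _).trans
        (mul_le_mul_of_nonneg_left (norm_cross_le_fe E B r x) hδ0)
    have k3 := mul_le_mul_of_nonneg_left (en_le h hr') hδ0
    refine (abs_add_le _ _).trans ?_
    linarith

/-! ### global solutions -/

theorem mem_Ico {t : ℝ} (ht : 0 ≤ t) : t ∈ Ico 0 (t + 1) := ⟨ht, lt_add_one t⟩

theorem sol (h : ∀ T, 0 < T → IsClassicalSolution T f E B) {t : ℝ} (ht : 0 ≤ t) :
    IsClassicalSolution (t + 1) f E B := h _ (by linarith)

theorem morawetz_global (h : ∀ T, 0 < T → IsClassicalSolution T f E B) (x₀ : E3) {R : ℝ}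
    (hR : 0 < R) : IntegrableOn (bal kw 1 x₀ R f E B) (Ioi 0) ∧
      ∫ t in Ioi 0, bal kw 1 x₀ R f E B t ≤ 6 * R * energy0 f E B :=
  integrableOn_of_bound (fun _ hb => continuousOn_bal (sol h hb) (mem_Ico hb) continuous_kw 1 x₀ R)
    (fun _ ht => bal_nonneg (sol h ht) (mem_Ico ht) kw_nonneg zero_le_one x₀ R)
    fun _ hb => morawetz (sol h hb) (mem_Ico hb) x₀ hR

theorem charge_global : ∃ C : ℝ, ∀ (f : ℝ → E3 → E3 → ℝ) (E B : ℝ → E3 → E3),
    (∀ T, 0 < T → IsClassicalSolution T f E B) → ∀ (x₀ : E3) (R : ℝ), 0 < R →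
      IntegrableOn (fun t => bal (fun _ => 1) 0 x₀ R f E B t ^ 2) (Ioi 0) ∧
      ∫ t in Ioi 0, bal (fun _ => 1) 0 x₀ R f E B t ^ 2 ≤ C * R ^ 2 * energy0 f E B := by
  obtain ⟨K, hK, H⟩ := exists_charge_le
  refine ⟨12 * K, fun f E B h x₀ R hR => ?_⟩
  have c : ∀ b, 0 ≤ b → ContinuousOn (fun t => bal (fun _ => 1) 0 x₀ R f E B t ^ 2) (Icc 0 b) :=
    fun b hb => (continuousOn_bal (sol h hb) (mem_Ico hb) continuous_const 0 x₀ R).pow 2
  refine integrableOn_of_bound c (fun _ _ => sq_nonneg _) fun b hb => ?_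
  have k1 := intervalIntegral.integral_mono_on (μ := volume) hb
    ((c b hb).intervalIntegrable_of_Icc hb)
    (((continuousOn_bal (sol h hb) (mem_Ico hb) continuous_kw 1 x₀ (2 * R)
      ).intervalIntegrable_of_Icc hb).const_mul (K * R))
    fun t ht => H (sol h ht.1) t (mem_Ico ht.1) x₀ R hR
  rw [intervalIntegral.integral_const_mul] at k1
  have k2 := mul_le_mul_of_nonneg_left (morawetz (sol h hb) (mem_Ico hb) x₀
    (by positivity : 0 < 2 * R)) (by positivity : 0 ≤ K * R)
  linarith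

/-- **Decay of the local energy.** -/
theorem decay_global (h : ∀ T, 0 < T → IsClassicalSolution T f E B) (x₀ : E3) (R : ℝ) :
    Tendsto (bal q 1 x₀ R f E B) atTop (𝓝 0) := by
  obtain ⟨K, hK, H⟩ := exists_charge_le
  obtain ⟨C, hC, H'⟩ := exists_cut
  have hρ : 0 < |R| + 1 := by positivity
  have hRρ : R ≤ |R| + 1 := (le_abs_self R).trans (le_add_of_nonneg_right zero_le_one)
  generalize |R| + 1 = ρ at hρ hRρ
  obtain ⟨χ, hχ, hc, h0, h1, h2, h3, hδ⟩ := H' x₀ ρ hρ
  have hq : ∀ v, 0 ≤ q v := fun v => (q_pos v).le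
  have low : ∀ t, 0 < t → bal q 1 x₀ R f E B t ≤ loc χ f E B t := fun t ht => by
    have := ball_le (continuous_den (sol h ht.le) (mem_Ico ht.le) continuous_q 1)
      (den_nonneg (sol h ht.le) (mem_Ico ht.le) hq zero_le_one) hχ.continuous hc h0 (x₀ := x₀)
      (R := R) (k := 1) fun x hx => (h2 x (closedBall_subset_closedBall hRρ hx)).ge
    rwa [one_mul, ← loc_eq (sol h ht.le) (mem_Ico ht.le) hχ.continuous hc] at this
  have pos : ∀ t, 0 < t → 0 ≤ bal q 1 x₀ R f E B t := fun t ht =>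
    bal_nonneg (sol h ht.le) (mem_Ico ht.le) hq zero_le_one x₀ R
  refine tendsto_of_tendsto_of_tendsto_of_le_of_le' tendsto_const_nhds ?_
    ((eventually_gt_atTop 0).mono pos) ((eventually_gt_atTop 0).mono low)
  refine tendsto_zero_of_lip (K := C / ρ * energy0 f E B)
    (mul_nonneg (by positivity) (energy0_nonneg (sol h le_rfl) (mem_Ico le_rfl)))
    (fun t ht => (pos t ht).trans (low t ht))
    (fun t s ht hts => loc_le (sol h (ht.le.trans hts)) hχ hc hδ ht hts (lt_add_one s))
    (morawetz_global h x₀ (by positivity : 0 < 2 * (2 * ρ))).1 fun ε hε =>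
    ⟨1 + K * (2 * ρ) / (4 * ε), fun t ht => ?_⟩
  have g := sol h ht.le
  have m := mem_Ico ht.le
  have c1 := continuous_den g m continuous_kw 1
  have c2 := continuous_den g m (φ := fun _ => 1) continuous_const 0
  have k1 := le_ball (D := fun x => den kw 1 f E B t x + den (fun _ => 1) 0 f E B t x)
    (G := fun x => χ x * den q 1 f E B t x) (c1.add c2)
    (hχ.continuous.mul (continuous_den g m continuous_q 1)) (x₀ := x₀) (R := 2 * ρ)
    (fun x => (mul_le_of_le_one_left (den_nonneg g m hq zero_le_one x) (h1 x)).trans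
      (den_q_le g m x)) fun x hx => by simp only [(h3 x hx).1, zero_mul]
  rw [← loc_eq g m hχ.continuous hc,
    integral_add (c1.continuousOn.integrableOn_compact (isCompact_closedBall _ _))
      (c2.continuousOn.integrableOn_compact (isCompact_closedBall _ _))] at k1
  have k2 := bal_mono g m continuous_kw kw_nonneg zero_le_one x₀
    (by linarith : 2 * ρ ≤ 2 * (2 * ρ))
  have k3 := H g t m x₀ (2 * ρ) (by positivity)
  have k4 : bal (fun _ => 1) 0 x₀ (2 * ρ) f E B t ≤
      ε + K * (2 * ρ) * bal kw 1 x₀ (2 * (2 * ρ)) f E B t / (4 * ε) := by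
    rw [← sub_le_iff_le_add', le_div_iff₀ (by positivity)]
    nlinarith [sq_nonneg (bal (fun _ => 1) 0 x₀ (2 * ρ) f E B t - 2 * ε)]
  have e : (1 + K * (2 * ρ) / (4 * ε)) * bal kw 1 x₀ (2 * (2 * ρ)) f E B t =
      bal kw 1 x₀ (2 * (2 * ρ)) f E B t +
        K * (2 * ρ) * bal kw 1 x₀ (2 * (2 * ρ)) f E B t / (4 * ε) := by ring
  rw [e]
  unfold bal at k2 k4 ⊢
  linarith

end Vale.Agent.N107
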