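import Vale.Agent.P107.H15.Cone3

/-!
# P107: local balance laws of energy and momentum for classical solutions
-/

open MeasureTheory Set Filter Topology
open scoped RealInnerProductSpace

noncomputable section

namespace Vale.Agent.N107

open P107

variable {T : ℝ} {f : ℝ → E3 → E3 → ℝ} {E B : ℝ → E3 → E3}

/-! ### the kinetic part -/

/-- a moment of the density -/
def kint (ψ : E3 × E3 → ℝ) (f : ℝ → E3 → E3 → ℝ) (t : ℝ) : ℝ := ∫ z : E3 × E3, ψ z * f t z.1 z.2

theorem integrable_k (h : IsClassicalSolution T f E B) {t : ℝ} (ht : t ∈ Ico 0 T)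
    {ψ : E3 × E3 → ℝ} (hψ : Continuous ψ) : Integrable fun z : E3 × E3 => ψ z * f t z.1 z.2 := by
  have := isAddHaar_prod
  exact (hψ.mul (h.f_slice ht).continuous).integrable_of_hasCompactSupport
    (HasCompactSupport.mul_left (h.hasCompactSupport ht))

theorem kint_mono (h : IsClassicalSolution T f E B) {t : ℝ} (ht : t ∈ Ico 0 T)
    {ψ φ : E3 × E3 → ℝ} (hψ : Continuous ψ) (hφ : Continuous φ) (hle : ∀ z, ψ z ≤ φ z) :
    kint ψ f t ≤ kint φ f t :=
  integral_mono (integrable_k h ht hψ) (integrable_k h ht hφ) fun z =>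
    mul_le_mul_of_nonneg_right (hle z) (h.f_nonneg t ht _ _)

theorem kint_q (c : ℝ) (t : ℝ) : kint (fun z => c * q z.2) f t = c * kin f t := by
  unfold kint kin
  rw [← integral_const_mul]
  simp only [mul_assoc]

theorem kint_add (h : IsClassicalSolution T f E B) {t : ℝ} (ht : t ∈ Ico 0 T)
    {ψ φ : E3 × E3 → ℝ} (hψ : Continuous ψ) (hφ : Continuous φ) :
    kint (fun z => ψ z + φ z) f t = kint ψ f t + kint φ f t := by
  unfold kint
  rw [← integral_add (integrable_k h ht hψ) (integrable_k h ht hφ)]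
  simp only [add_mul]

theorem abs_kint_le (h : IsClassicalSolution T f E B) {t : ℝ} (ht : t ∈ Ico 0 T)
    {ψ : E3 × E3 → ℝ} (hψ : Continuous ψ) {c : ℝ} (hle : ∀ z, |ψ z| ≤ c * q z.2) :
    |kint ψ f t| ≤ c * kin f t := by
  have hq : ∀ c : ℝ, Continuous fun z : E3 × E3 => c * q z.2 := fun c =>
    continuous_const.mul (continuous_q.comp continuous_snd)
  rw [abs_le, ← neg_mul, ← kint_q, ← kint_q]
  exact ⟨kint_mono h ht (hq _) hψ fun z => by linarith [(abs_le.1 (hle z)).1],
    kint_mono h ht hψ (hq _) fun z => (abs_le.1 (hle z)).2⟩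

theorem kint_prod (h : IsClassicalSolution T f E B) {t : ℝ} (ht : t ∈ Ico 0 T)
    {θ φ : E3 → ℝ} (hθ : Continuous θ) (hφ : Continuous φ) :
    kint (fun z => θ z.1 * φ z.2) f t = ∫ x, θ x * ∫ v, φ v * f t x v := by
  have hi := integrable_k h ht (ψ := fun z => θ z.1 * φ z.2) (by fun_prop)
  unfold kint
  rw [Measure.volume_eq_prod] at hi ⊢
  rw [integral_prod _ hi]
  simp only [mul_assoc, integral_const_mul]

theorem continuousOn_kint (h : IsClassicalSolution T f E B) {b : ℝ} (hb : b ∈ Ico 0 T)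
    {ψ : E3 × E3 → ℝ} (hψ : Continuous ψ) : ContinuousOn (kint ψ f) (Icc 0 b) := by
  have := isAddHaar_prod
  obtain ⟨R, hR⟩ := h.exists_support hb
  refine continuousOn_integral_of_compact_support (isCompact_KR R) ?_ ?_
  · exact (hψ.comp continuous_snd).continuousOn.mul
      (h.f_contDiff.continuousOn.mono (prod_mono (Icc_subset_Ico_right hb.2) (subset_refl _)))
  · intro s z hs hz
    rw [hR s hs z hz, mul_zero]

theorem continuous_field (h : IsClassicalSolution T f E B) {t : ℝ} (ht : t ∈ Ico 0 T) :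
    Continuous fun z : E3 × E3 => (u z.2, E t z.1 + cross (u z.2) (B t z.1)) :=
  (continuous_u.comp continuous_snd).prodMk (((h.E_slice ht).continuous.comp continuous_fst).add
    (contDiff_cross (u_contDiff.comp contDiff_snd) ((h.B_slice ht).comp contDiff_fst)).continuous)

theorem hasDerivAt_kint (h : IsClassicalSolution T f E B) {t : ℝ} (ht : t ∈ Ioo 0 T)
    {ψ : E3 × E3 → ℝ} (hψ : ContDiff ℝ 1 ψ) : HasDerivAt (kint ψ f)
      (kint (fun z => fderiv ℝ ψ z (u z.2, E t z.1 + cross (u z.2) (B t z.1))) f t) t := by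
  have := isAddHaar_prod
  obtain ⟨b, htb, hbT⟩ := exists_between ht.2
  have hb : b ∈ Ico 0 T := ⟨(ht.1.trans htb).le, hbT⟩
  have ht' := Ioo_subset_Ico_self ht
  obtain ⟨R, hR⟩ := h.exists_support hb
  have hsub : Ioo 0 b ⊆ Ioo 0 T := Ioo_subset_Ioo_right hbT.le
  have h1 := hasDerivAt_integral_of_compact (μ := (volume : Measure (E3 × E3))) (a := 0) (b := b)
    (F := fun s (z : E3 × E3) => ψ z * f s z.1 z.2)
    (F' := fun s (z : E3 × E3) => ψ z
      * fderiv ℝ (fun y : ℝ × E3 × E3 => f y.1 y.2.1 y.2.2) (s, z) (1, 0))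
    (isCompact_KR R) (fun s hs z hz => by
      rw [hR s (Ioo_subset_Icc_self hs) z hz, mul_zero])
    (fun s hs z => (hasDerivAt_of_slab h.f_contDiff (hsub hs) z).const_mul (ψ z))
    (fun s hs => hψ.continuous.mul (h.f_slice (Ioo_subset_Ico_self (hsub hs))).continuous)
    ((hψ.continuous.comp continuous_snd).continuousOn.mul
      ((continuousOn_fderiv_of_slab h.f_contDiff).mono (prod_mono hsub (subset_refl _))))
    ⟨ht.1, htb⟩
  refine h1.congr_deriv ?_
  have hf := h.f_slice ht'
  have h2 := Cn.transport_ibp (g := fun z => ψ z * f t z.1 z.2) (hψ.mul hf)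
    (HasCompactSupport.mul_left (h.hasCompactSupport ht')) (h.E_slice ht') (h.B_slice ht')
  have hV := continuous_field h ht'
  have c1 : Continuous fun z : E3 × E3 =>
      fderiv ℝ ψ z (u z.2, E t z.1 + cross (u z.2) (B t z.1)) :=
    (hψ.continuous_fderiv one_ne_zero).clm_apply hV
  have i2 : Integrable fun z : E3 × E3 => ψ z * fderiv ℝ (fun y : E3 × E3 => f t y.1 y.2) z
      (u z.2, E t z.1 + cross (u z.2) (B t z.1)) := by
    refine (hψ.continuous.mul ((hf.continuous_fderiv one_ne_zero).clm_apply hV)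
      ).integrable_of_hasCompactSupport (HasCompactSupport.mul_left ?_)
    refine ((h.hasCompactSupport ht').fderiv (𝕜 := ℝ)).mono fun z hz => ?_
    intro k
    exact hz (by simp only [k, zero_apply])
  have e : ∀ z : E3 × E3, fderiv ℝ (fun z => ψ z * f t z.1 z.2) z
      (u z.2, E t z.1 + cross (u z.2) (B t z.1)) =
      ψ z * fderiv ℝ (fun y : E3 × E3 => f t y.1 y.2) z
        (u z.2, E t z.1 + cross (u z.2) (B t z.1)) +
      fderiv ℝ ψ z (u z.2, E t z.1 + cross (u z.2) (B t z.1)) * f t z.1 z.2 := fun z => by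
    rw [fderiv_fun_mul (hψ.differentiable one_ne_zero z) (hf.differentiable one_ne_zero z)]
    simp only [add_apply, smul_apply, smul_eq_mul]
    ring
  simp only [e] at h2
  rw [integral_add i2 (integrable_k h ht' c1)] at h2
  simp only [h.vlasov_fderiv ht, mul_neg, integral_neg]
  unfold kint
  linarith

/-! ### the field part -/

theorem integral_div_zero {W : E3 → E3} (hW : ContDiff ℝ 1 W) (hc : HasCompactSupport W) :
    ∫ x, div W x = 0 := by
  have hi : ∀ i, ContDiff ℝ 1 fun y => W y i := fun i => contDiff_euclidean.1 hW i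
  have hs : ∀ i, HasCompactSupport fun y => W y i := fun i =>
    hc.mono fun y hy k => hy (by simp only [k, PiLp.zero_apply])
  unfold div pd
  rw [integral_finsetSum _ fun i _ => (((hi i).continuous_fderiv one_ne_zero).clm_apply
    continuous_const).integrable_of_hasCompactSupport ((hs i).fderiv_apply ℝ _)]
  refine Finset.sum_eq_zero fun i _ => ?_
  have := ibp_compact (μ := (volume : Measure E3)) (w := fun _ => 1) contDiff_const (hi i) (hs i)
    (EuclideanSpace.single i 1)
  simpa using this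

theorem pd_eq {W : E3 → E3} {L : E3 →L[ℝ] E3} {x : E3} (hW : HasFDerivAt W L x) (i j : Fin 3) :
    pd i (fun y => W y j) x = L (EuclideanSpace.single i 1) j := by
  have := ((EuclideanSpace.proj j : E3 →L[ℝ] ℝ).hasFDerivAt.comp x hW).fderiv
  unfold pd
  exact congrArg (fun M : E3 →L[ℝ] ℝ => M (EuclideanSpace.single i 1)) this

theorem div_eq {W : E3 → E3} {L : E3 →L[ℝ] E3} {x : E3} (hW : HasFDerivAt W L x) :
    div W x = ∑ i, L (EuclideanSpace.single i 1) i :=
  Finset.sum_congr rfl fun i _ => pd_eq hW i i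

theorem clm_apply_eq (L : E3 →L[ℝ] E3) (y : E3) (j : Fin 3) :
    L y j = ∑ i, y i * L (EuclideanSpace.single i 1) j := by
  conv_lhs => rw [vec_eq_sum y]
  simp [Fin.sum_univ_three]

theorem inner_eq (a b : E3) : ⟪a, b⟫ = a 0 * b 0 + a 1 * b 1 + a 2 * b 2 := by
  simp only [PiLp.inner_apply, Fin.sum_univ_three]
  simp
  ring

theorem continuous_div {W : E3 → E3} (hW : ContDiff ℝ 1 W) : Continuous (div W) :=
  continuous_finsetSum _ fun i _ =>
    ((contDiff_euclidean.1 hW i).continuous_fderiv one_ne_zero).clm_apply continuous_const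

/-- the Maxwell stress of `F` against the gradient of `a` -/
def stress (a : E3 → E3) (x F : E3) : ℝ := ‖F‖ ^ 2 / 2 * div a x - ⟪fderiv ℝ a x F, F⟫

theorem div_stress {a F : E3 → E3} (ha : ContDiff ℝ 1 a) (hF : ContDiff ℝ 1 F) (x : E3) :
    div (fun y => ⟪a y, F y⟫ • F y - (1 / 2 * ⟪F y, F y⟫) • a y) x =
      ⟪a x, cross (curl F x) (F x)⟫ - (stress a x (F x) - ⟪a x, F x⟫ * div F x) := by
  have h1 := (ha.differentiable one_ne_zero x).hasFDerivAt
  have h2 := (hF.differentiable one_ne_zero x).hasFDerivAt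
  have h3 : HasFDerivAt (fun y => ⟪a y, F y⟫ • F y - (1 / 2 * ⟪F y, F y⟫) • a y) _ x :=
    ((h1.inner ℝ h2).smul h2).sub (((h2.inner ℝ h2).const_mul (1 / 2)).smul h1)
  rw [div_eq h3, stress, div_eq h1, div_eq h2, ← real_inner_self_eq_norm_sq]
  simp only [curl, pd_eq h2, Fin.sum_univ_three, sub_apply,
    add_apply, smul_apply,
    ContinuousLinearMap.smulRight_apply, ContinuousLinearMap.comp_apply,
    ContinuousLinearMap.prod_apply, fderivInnerCLM_apply, PiLp.sub_apply, PiLp.add_apply,
    PiLp.smul_apply, smul_eq_mul, inner_eq, cross, clm_apply_eq (fderiv ℝ a x) (F x),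
    Matrix.cons_val_zero, Matrix.cons_val_one, Matrix.cons_val]
  ring

theorem continuous_stress {a F : E3 → E3} (ha : ContDiff ℝ 1 a) (hF : Continuous F) :
    Continuous fun x => stress a x (F x) :=
  (((hF.norm.pow 2).div_const 2).mul (continuous_div ha)).sub
    (((ha.continuous_fderiv one_ne_zero).clm_apply hF).inner hF)

theorem stress_support {a F : E3 → E3} (hc : HasCompactSupport a) :
    HasCompactSupport fun x => stress a x (F x) := by
  refine HasCompactSupport.intro hc fun x hx => ?_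
  have h0 : a =ᶠ[𝓝 x] fun _ => 0 := notMem_tsupport_iff_eventuallyEq.1 hx
  have h1 : HasFDerivAt a (0 : E3 →L[ℝ] E3) x := (hasFDerivAt_const 0 x).congr_of_eventuallyEq h0
  simp [stress, div_eq h1, h1.fderiv]

theorem inner_support {a F : E3 → E3} (hc : HasCompactSupport a) :
    HasCompactSupport fun x => ⟪a x, F x⟫ :=
  hc.mono fun x hx k => hx (by simp only [k, inner_zero_left])

theorem continuous_cross {X : Type} [TopologicalSpace X] {a b : X → E3} (ha : Continuous a)
    (hb : Continuous b) : Continuous fun x => cross (a x) (b x) := by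
  refine (PiLp.continuous_toLp 2 _).comp (continuous_pi fun i => ?_)
  fin_cases i <;> simp <;> fun_prop

theorem stress_ibp {a F : E3 → E3} (ha : ContDiff ℝ 1 a) (hc : HasCompactSupport a)
    (hF : ContDiff ℝ 1 F) : ∫ x, ⟪a x, cross (curl F x) (F x)⟫ =
      (∫ x, stress a x (F x)) - ∫ x, ⟪a x, F x⟫ * div F x := by
  have h1 := integral_div_zero (W := fun y => ⟪a y, F y⟫ • F y - (1 / 2 * ⟪F y, F y⟫) • a y)
    (((ha.inner ℝ hF).smul hF).sub ((contDiff_const.mul (hF.inner ℝ hF)).smul ha))
    (hc.mono fun x hx k => hx (by simp only [k, inner_zero_left, zero_smul, smul_zero, sub_zero]))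
  have i1 : Integrable fun x => ⟪a x, cross (curl F x) (F x)⟫ :=
    (ha.continuous.inner (continuous_cross (continuous_curl hF) hF.continuous)
      ).integrable_of_hasCompactSupport (inner_support hc)
  have i2 : Integrable fun x => stress a x (F x) :=
    (continuous_stress ha hF.continuous).integrable_of_hasCompactSupport (stress_support hc)
  have i3 : Integrable fun x => ⟪a x, F x⟫ * div F x :=
    ((ha.continuous.inner hF.continuous).mul (continuous_div hF)).integrable_of_hasCompactSupport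
      (HasCompactSupport.mul_right (inner_support hc))
  have i4 : Integrable fun x => stress a x (F x) - ⟪a x, F x⟫ * div F x := i2.sub i3
  simp only [div_stress ha hF] at h1
  rw [integral_sub i1 i4, integral_sub i2 i3] at h1
  linarith

/-- the field momentum against `a` -/
def fmom (a : E3 → E3) (E B : ℝ → E3 → E3) (t : ℝ) : ℝ := ∫ x, ⟪a x, cross (E t x) (B t x)⟫

theorem continuousOn_cross {X : Type} [TopologicalSpace X] {a b : X → E3} {s : Set X}
    (ha : ContinuousOn a s) (hb : ContinuousOn b s) :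
    ContinuousOn (fun x => cross (a x) (b x)) s :=
  (continuous_cross continuous_fst continuous_snd).comp_continuousOn (ha.prodMk hb)

theorem continuousOn_fmom (h : IsClassicalSolution T f E B) {a : E3 → E3} (ha : Continuous a)
    (hc : HasCompactSupport a) : ContinuousOn (fmom a E B) (Ico 0 T) := by
  refine continuousOn_integral_of_compact_support hc ?_ ?_
  · exact (ha.comp continuous_snd).continuousOn.inner
      (continuousOn_cross h.E_contDiff.continuousOn h.B_contDiff.continuousOn)
  · intro s x _ hx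
    rw [image_eq_zero_of_notMem_tsupport hx, inner_zero_left]

theorem hasDerivAt_inner_cross (a : E3) {F G : ℝ → E3} {F' G' : E3} {t : ℝ}
    (hF : HasDerivAt F F' t) (hG : HasDerivAt G G' t) :
    HasDerivAt (fun s => ⟪a, cross (F s) (G s)⟫)
      (⟪a, cross F' (G t)⟫ + ⟪a, cross (F t) G'⟫) t := by
  have p : ∀ i, HasDerivAt (fun s => F s i) (F' i) t := fun i =>
    (EuclideanSpace.proj i : E3 →L[ℝ] ℝ).hasFDerivAt.comp_hasDerivAt t hF
  have r : ∀ i, HasDerivAt (fun s => G s i) (G' i) t := fun i =>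
    (EuclideanSpace.proj i : E3 →L[ℝ] ℝ).hasFDerivAt.comp_hasDerivAt t hG
  simp only [inner_eq, cross, Matrix.cons_val_zero, Matrix.cons_val_one, Matrix.cons_val]
  refine ((((((p 1).mul (r 2)).sub ((p 2).mul (r 1))).const_mul (a 0)).add
    ((((p 2).mul (r 0)).sub ((p 0).mul (r 2))).const_mul (a 1))).add
    ((((p 0).mul (r 1)).sub ((p 1).mul (r 0))).const_mul (a 2))).congr_deriv ?_
  ring

theorem hasDerivAt_fmom (h : IsClassicalSolution T f E B) {a : E3 → E3} (ha : ContDiff ℝ 1 a)
    (hc : HasCompactSupport a) {t : ℝ} (ht : t ∈ Ioo 0 T) : HasDerivAt (fmom a E B)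
      ((∫ x, stress a x (E t x)) + (∫ x, stress a x (B t x)) - (∫ x, ⟪a x, E t x⟫ * rho f t x)
        - ∫ x, ⟪cross (B t x) (a x), cur f t x⟫) t := by
  have ht' := Ioo_subset_Ico_self ht
  have hE : ContinuousOn (fun y : ℝ × E3 => E y.1 y.2) (Ioo 0 T ×ˢ univ) :=
    h.E_contDiff.continuousOn.mono (prod_mono Ioo_subset_Ico_self (subset_refl _))
  have hB : ContinuousOn (fun y : ℝ × E3 => B y.1 y.2) (Ioo 0 T ×ˢ univ) :=
    h.B_contDiff.continuousOn.mono (prod_mono Ioo_subset_Ico_self (subset_refl _))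
  have ha2 : ContinuousOn (fun y : ℝ × E3 => a y.2) (Ioo 0 T ×ˢ univ) :=
    (ha.continuous.comp continuous_snd).continuousOn
  have h1 := hasDerivAt_integral_of_compact (μ := (volume : Measure E3)) (a := 0) (b := T)
    (F := fun s x => ⟪a x, cross (E s x) (B s x)⟫)
    (F' := fun s x => ⟪a x, cross (fderiv ℝ (fun y : ℝ × E3 => E y.1 y.2) (s, x) (1, 0)) (B s x)⟫
      + ⟪a x, cross (E s x) (fderiv ℝ (fun y : ℝ × E3 => B y.1 y.2) (s, x) (1, 0))⟫) hc
    (fun s _ x hx => by rw [image_eq_zero_of_notMem_tsupport hx, inner_zero_left])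
    (fun s hs x => hasDerivAt_inner_cross (a x) (hasDerivAt_of_slab h.E_contDiff hs x)
      (hasDerivAt_of_slab h.B_contDiff hs x))
    (fun s hs => ha.continuous.inner (continuous_cross
      (h.E_slice (Ioo_subset_Ico_self hs)).continuous
      (h.B_slice (Ioo_subset_Ico_self hs)).continuous))
    ((ha2.inner (continuousOn_cross (continuousOn_fderiv_of_slab h.E_contDiff) hB)).add
      (ha2.inner (continuousOn_cross hE (continuousOn_fderiv_of_slab h.B_contDiff)))) ht
  refine h1.congr_deriv ?_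
  have cE := (h.E_slice ht').continuous
  have cB := (h.B_slice ht').continuous
  have e : ∀ x, ⟪a x, cross (curl (B t) x - cur f t x) (B t x)⟫ +
      ⟪a x, cross (E t x) (-curl (E t) x)⟫ = ⟪a x, cross (curl (E t) x) (E t x)⟫ +
      ⟪a x, cross (curl (B t) x) (B t x)⟫ - ⟪cross (B t x) (a x), cur f t x⟫ := fun x => by
    simp only [inner_eq, cross, Matrix.cons_val_zero, Matrix.cons_val_one, Matrix.cons_val,
      PiLp.sub_apply, PiLp.neg_apply]
    ring
  have i1 : ∀ F : E3 → E3, ContDiff ℝ 1 F → Integrable fun x => ⟪a x, cross (curl F x) (F x)⟫ :=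
    fun F hF => (ha.continuous.inner (continuous_cross (continuous_curl hF) hF.continuous)
      ).integrable_of_hasCompactSupport (inner_support hc)
  have i2 : Integrable fun x => ⟪cross (B t x) (a x), cur f t x⟫ :=
    ((continuous_cross cB ha.continuous).inner (h.continuous_cur ht)
      ).integrable_of_hasCompactSupport (hc.mono fun x hx k => hx (by simp [k, cross, inner_eq]))
  have i3 : Integrable fun x => ⟪a x, cross (curl (E t) x) (E t x)⟫ +
      ⟪a x, cross (curl (B t) x) (B t x)⟫ := (i1 _ (h.E_slice ht')).add (i1 _ (h.B_slice ht'))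
  simp only [h.ampere_fderiv ht, h.faraday_fderiv ht, e]
  rw [integral_sub i3 i2,
    integral_add (i1 _ (h.E_slice ht')) (i1 _ (h.B_slice ht')),
    stress_ibp ha hc (h.E_slice ht'), stress_ibp ha hc (h.B_slice ht')]
  simp only [h.gauss t ht', h.gauss_mag t ht', mul_zero, integral_zero]
  ring

/-! ### the two laws -/

theorem kint_work (h : IsClassicalSolution T f E B) {t : ℝ} (ht : t ∈ Ico 0 T) {H : E3 → E3}
    (hH : Continuous H) : kint (fun z => ⟪u z.2, H z.1⟫) f t = ∫ x, ⟪H x, cur f t x⟫ := by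
  have := Cn.integral_work (W := fun z => f t z.1 z.2) (h.f_slice ht).continuous
    (h.hasCompactSupport ht) hH
  unfold kint cur
  simpa only [mul_comm] using this

theorem kint_rho (h : IsClassicalSolution T f E B) {t : ℝ} (ht : t ∈ Ico 0 T) {θ : E3 → ℝ}
    (hθ : Continuous θ) : kint (fun z => θ z.1) f t = ∫ x, θ x * rho f t x := by
  have := kint_prod h ht hθ (φ := fun _ => 1) continuous_const
  simpa only [mul_one, one_mul, rho] using this

/-- the momentum against the vector field `a` -/
def mom (a : E3 → E3) (f : ℝ → E3 → E3 → ℝ) (E B : ℝ → E3 → E3) (t : ℝ) : ℝ :=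
  kint (fun z => ⟪a z.1, z.2⟫) f t + fmom a E B t

/-- **Balance of momentum.** -/
theorem hasDerivAt_mom (h : IsClassicalSolution T f E B) {a : E3 → E3} (ha : ContDiff ℝ 1 a)
    (hc : HasCompactSupport a) {t : ℝ} (ht : t ∈ Ioo 0 T) : HasDerivAt (mom a f E B)
      (kint (fun z => ⟪fderiv ℝ a z.1 (u z.2), z.2⟫) f t +
        ((∫ x, stress a x (E t x)) + ∫ x, stress a x (B t x))) t := by
  have ht' := Ioo_subset_Ico_self ht
  have cE := (h.E_slice ht').continuous
  have cB := (h.B_slice ht').continuous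
  have ca := ha.continuous
  have cu := continuous_u
  refine ((hasDerivAt_kint h ht (ψ := fun z => ⟪a z.1, z.2⟫)
    ((ha.comp contDiff_fst).inner ℝ contDiff_snd)).add (hasDerivAt_fmom h ha hc ht)).congr_deriv ?_
  have e : (fun z : E3 × E3 => fderiv ℝ (fun z : E3 × E3 => ⟪a z.1, z.2⟫) z
      (u z.2, E t z.1 + cross (u z.2) (B t z.1))) = fun z => ⟪fderiv ℝ a z.1 (u z.2), z.2⟫ +
        (⟪a z.1, E t z.1⟫ + ⟪u z.2, cross (B t z.1) (a z.1)⟫) := by
    funext z
    have h1 : HasFDerivAt (fun z : E3 × E3 => a z.1) _ z :=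
      (ha.differentiable one_ne_zero z.1).hasFDerivAt.comp z hasFDerivAt_fst
    rw [(h1.inner ℝ hasFDerivAt_snd).fderiv]
    simp only [ContinuousLinearMap.comp_apply, ContinuousLinearMap.prod_apply,
      fderivInnerCLM_apply, ContinuousLinearMap.coe_fst', ContinuousLinearMap.coe_snd', inner_eq,
      cross, Matrix.cons_val_zero, Matrix.cons_val_one, Matrix.cons_val, PiLp.add_apply]
    ring
  have c1 : Continuous fun z : E3 × E3 => ⟪fderiv ℝ a z.1 (u z.2), z.2⟫ :=
    (((ha.continuous_fderiv one_ne_zero).comp continuous_fst).clm_apply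
      (cu.comp continuous_snd)).inner continuous_snd
  have c2 : Continuous fun z : E3 × E3 => ⟪a z.1, E t z.1⟫ := by fun_prop
  have c3 : Continuous fun z : E3 × E3 => ⟪u z.2, cross (B t z.1) (a z.1)⟫ :=
    (cu.comp continuous_snd).inner ((continuous_cross cB ca).comp continuous_fst)
  have c23 : Continuous fun z : E3 × E3 =>
      ⟪a z.1, E t z.1⟫ + ⟪u z.2, cross (B t z.1) (a z.1)⟫ := c2.add c3
  rw [e, kint_add h ht' c1 c23, kint_add h ht' c2 c3,
    kint_rho h ht' (θ := fun x => ⟪a x, E t x⟫) (ca.inner cE),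
    kint_work h ht' (H := fun x => cross (B t x) (a x)) (continuous_cross cB ca)]
  ring

/-- the energy against the weight `χ` -/
def loc (χ : E3 → ℝ) (f : ℝ → E3 → E3 → ℝ) (E B : ℝ → E3 → E3) (t : ℝ) : ℝ :=
  kint (fun z => χ z.1 * q z.2) f t + fen χ E B t

/-- **Balance of energy.** -/
theorem hasDerivAt_loc (h : IsClassicalSolution T f E B) {χ : E3 → ℝ} (hχ : ContDiff ℝ 1 χ)
    (hc : HasCompactSupport χ) {t : ℝ} (ht : t ∈ Ioo 0 T) : HasDerivAt (loc χ f E B)
      (kint (fun z => fderiv ℝ χ z.1 z.2) f t +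
        ∫ x, fderiv ℝ χ x (cross (E t x) (B t x))) t := by
  have ht' := Ioo_subset_Ico_self ht
  have cE := (h.E_slice ht').continuous
  have cB := (h.B_slice ht').continuous
  have cχ := hχ.continuous
  have cu := continuous_u
  refine ((hasDerivAt_kint h ht (ψ := fun z => χ z.1 * q z.2)
    ((hχ.comp contDiff_fst).mul (q_contDiff.comp contDiff_snd))).add
    (h.hasDerivAt_fen hχ hc ht)).congr_deriv ?_
  have e : (fun z : E3 × E3 => fderiv ℝ (fun z : E3 × E3 => χ z.1 * q z.2) z
      (u z.2, E t z.1 + cross (u z.2) (B t z.1))) = fun z => fderiv ℝ χ z.1 z.2 +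
        ⟪u z.2, χ z.1 • E t z.1⟫ := by
    funext z
    have h1 : HasFDerivAt (fun z : E3 × E3 => χ z.1) _ z :=
      (hχ.differentiable one_ne_zero z.1).hasFDerivAt.comp z hasFDerivAt_fst
    have h2 : HasFDerivAt (fun z : E3 × E3 => q z.2) _ z :=
      (hasFDerivAt_q z.2).comp z hasFDerivAt_snd
    rw [(h1.fun_mul h2).fderiv]
    simp only [ContinuousLinearMap.comp_apply, add_apply,
      smul_apply, ContinuousLinearMap.coe_fst', ContinuousLinearMap.coe_snd',
      innerSL_apply_apply, smul_eq_mul]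
    rw [← smul_eq_mul (q z.2), ← map_smul, q_smul_u, ← real_inner_smul_left, ← u, inner_add_right,
      Cn.inner_cross_self, real_inner_smul_right]
    ring
  have c1 : Continuous fun z : E3 × E3 => fderiv ℝ χ z.1 z.2 :=
    ((hχ.continuous_fderiv one_ne_zero).comp continuous_fst).clm_apply continuous_snd
  have i1 : Integrable fun x => χ x * (⟪E t x, curl (B t) x⟫ - ⟪B t x, curl (E t) x⟫) :=
    (cχ.mul ((cE.inner (continuous_curl (h.B_slice ht'))).sub
      (cB.inner (continuous_curl (h.E_slice ht'))))).integrable_of_hasCompactSupport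
      (HasCompactSupport.mul_right hc)
  have i2 : Integrable fun x => ⟪χ x • E t x, cur f t x⟫ :=
    ((cχ.smul cE).inner (h.continuous_cur ht)).integrable_of_hasCompactSupport
      (hc.mono fun x hx k => hx (by simp only [k, zero_smul, inner_zero_left]))
  have e2 : ∀ x, χ x * (⟪E t x, curl (B t) x - cur f t x⟫ - ⟪B t x, curl (E t) x⟫) =
      χ x * (⟪E t x, curl (B t) x⟫ - ⟪B t x, curl (E t) x⟫) - ⟪χ x • E t x, cur f t x⟫ :=
    fun x => by
      rw [inner_sub_right, real_inner_smul_left]
      ring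
  simp only [e2]
  rw [e, kint_add h ht' c1 (by fun_prop), kint_work h ht' (H := fun x => χ x • E t x) (cχ.smul cE),
    integral_sub i1 i2, maxwell_ibp hχ hc (h.E_slice ht') (h.B_slice ht')]
  ring

theorem form_apply_eq (L : E3 →L[ℝ] ℝ) (y : E3) :
    L y = ∑ i, y i * L (EuclideanSpace.single i 1) := by
  conv_lhs => rw [vec_eq_sum y]
  simp [Fin.sum_univ_three]

theorem integrable_form {χ : E3 → ℝ} {F : E3 → E3} (hχ : ContDiff ℝ 1 χ)
    (hc : HasCompactSupport χ) (hF : Continuous F) : Integrable fun x => fderiv ℝ χ x (F x) := by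
  have c : Continuous fun x => fderiv ℝ χ x (F x) :=
    (hχ.continuous_fderiv one_ne_zero).clm_apply hF
  refine c.integrable_of_hasCompactSupport ((hc.fderiv (𝕜 := ℝ)).mono fun x hx k => hx ?_)
  simp only [k, zero_apply]

theorem div_smul {χ : E3 → ℝ} {F : E3 → E3} (hχ : ContDiff ℝ 1 χ) (hF : ContDiff ℝ 1 F) (x : E3) :
    div (fun x => χ x • F x) x = χ x * div F x + fderiv ℝ χ x (F x) := by
  have k := (hF.differentiable one_ne_zero x).hasFDerivAt
  have k2 : HasFDerivAt (fun x => χ x • F x) _ x :=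
    (hχ.differentiable one_ne_zero x).hasFDerivAt.smul k
  rw [div_eq k2, div_eq k, form_apply_eq (fderiv ℝ χ x) (F x)]
  simp only [Fin.sum_univ_three, add_apply, smul_apply,
    ContinuousLinearMap.smulRight_apply, PiLp.add_apply, PiLp.smul_apply, smul_eq_mul]
  ring

/-- **Gauss' law.** -/
theorem charge_eq (h : IsClassicalSolution T f E B) {χ : E3 → ℝ} (hχ : ContDiff ℝ 1 χ)
    (hc : HasCompactSupport χ) {t : ℝ} (ht : t ∈ Ico 0 T) :
    ∫ x, χ x * rho f t x = -∫ x, fderiv ℝ χ x (E t x) := by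
  have hE := h.E_slice ht
  have hs : HasCompactSupport fun x => χ x • E t x :=
    hc.mono fun x hx k => hx (by simp only [k, zero_smul])
  have h1 := integral_div_zero (W := fun x => χ x • E t x) (hχ.smul hE) hs
  have i1 : Integrable fun x => χ x * div (E t) x :=
    (hχ.continuous.mul (continuous_div hE)).integrable_of_hasCompactSupport
      (HasCompactSupport.mul_right hc)
  simp only [div_smul hχ hE] at h1
  rw [integral_add i1 (integrable_form hχ hc hE.continuous)] at h1
  simp only [h.gauss t ht] at h1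
  linarith

end Vale.Agent.N107
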