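import Vale.Agent.N107.Laws

/-!
# P107: the Morawetz estimate for classical solutions
-/

open MeasureTheory Set Filter Topology Metric
open scoped RealInnerProductSpace

noncomputable section

namespace Vale.Agent.N107

open P107

variable {T : ℝ} {f : ℝ → E3 → E3 → ℝ} {E B : ℝ → E3 → E3}

/-! ### energy densities -/

/-- the field energy density -/
def fe (E B : ℝ → E3 → E3) (t : ℝ) (x : E3) : ℝ := (‖E t x‖ ^ 2 + ‖B t x‖ ^ 2) / 2

theorem fe_nonneg (E B : ℝ → E3 → E3) (t : ℝ) (x : E3) : 0 ≤ fe E B t x := by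
  unfold fe
  positivity

theorem integrable_fe (h : IsClassicalSolution T f E B) {t : ℝ} (ht : t ∈ Ico 0 T) :
    Integrable (fe E B t) :=
  ((integrable_norm_sq (h.E_memLp t ht)).add (integrable_norm_sq (h.B_memLp t ht))).div_const 2

theorem continuous_fe (h : IsClassicalSolution T f E B) {t : ℝ} (ht : t ∈ Ico 0 T) :
    Continuous (fe E B t) :=
  (((h.E_slice ht).continuous.norm.pow 2).add ((h.B_slice ht).continuous.norm.pow 2)).div_const 2

theorem integral_fe_nonneg (E B : ℝ → E3 → E3) (t : ℝ) : 0 ≤ ∫ x, fe E B t x :=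
  integral_nonneg (fe_nonneg E B t)

theorem en_le (h : IsClassicalSolution T f E B) {t : ℝ} (ht : t ∈ Ico 0 T) :
    (∫ x, fe E B t x) + kin f t ≤ energy0 f E B := by
  have h0 : (0 : ℝ) ∈ Ico 0 T := ⟨le_rfl, ht.1.trans_lt ht.2⟩
  have h1 : (∫⁻ x, ENNReal.ofReal (fe E B t x)) + ENNReal.ofReal (kin f t)
      ≤ ENNReal.ofReal ((∫ x, fe E B 0 x) + kin f 0) := h.energy_le ht
  rw [← ofReal_integral_eq_lintegral_ofReal (integrable_fe h ht) (ae_of_all _ (fe_nonneg E B t)),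
    ← ENNReal.ofReal_add (integral_fe_nonneg E B t) (h.kin_nonneg ht),
    ENNReal.ofReal_le_ofReal_iff (add_nonneg (integral_fe_nonneg E B 0) (h.kin_nonneg h0))] at h1
  exact h1

theorem energy0_nonneg (h : IsClassicalSolution T f E B) {t : ℝ} (ht : t ∈ Ico 0 T) :
    0 ≤ energy0 f E B :=
  (add_nonneg (integral_fe_nonneg E B t) (h.kin_nonneg ht)).trans (en_le h ht)

theorem abs_integral_le (h : IsClassicalSolution T f E B) {t : ℝ} (ht : t ∈ Ico 0 T)
    {G : E3 → ℝ} {c : ℝ} (hG : ∀ x, |G x| ≤ c * fe E B t x) :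
    |∫ x, G x| ≤ c * ∫ x, fe E B t x := by
  rw [← integral_const_mul, ← Real.norm_eq_abs]
  exact norm_integral_le_of_norm_le ((integrable_fe h ht).const_mul c) (ae_of_all _ hG)

theorem norm_cross_le_fe (E B : ℝ → E3 → E3) (t : ℝ) (x : E3) :
    ‖cross (E t x) (B t x)‖ ≤ fe E B t x := by
  refine (norm_cross_le _ _).trans ?_
  unfold fe
  nlinarith only [sq_nonneg (‖E t x‖ - ‖B t x‖)]

/-- a moment of the density plus a multiple of the field energy density -/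
def den (φ : E3 → ℝ) (c : ℝ) (f : ℝ → E3 → E3 → ℝ) (E B : ℝ → E3 → E3) (t : ℝ) (x : E3) : ℝ :=
  (∫ v, φ v * f t x v) + c * fe E B t x

/-- its integral over a ball -/
def bal (φ : E3 → ℝ) (c : ℝ) (x₀ : E3) (R : ℝ) (f : ℝ → E3 → E3 → ℝ) (E B : ℝ → E3 → E3)
    (t : ℝ) : ℝ := ∫ x in closedBall x₀ R, den φ c f E B t x

theorem den_nonneg (h : IsClassicalSolution T f E B) {t : ℝ} (ht : t ∈ Ico 0 T) {φ : E3 → ℝ}
    (hφ : ∀ v, 0 ≤ φ v) {c : ℝ} (hc : 0 ≤ c) (x : E3) : 0 ≤ den φ c f E B t x :=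
  add_nonneg (integral_nonneg fun v => mul_nonneg (hφ v) (h.f_nonneg t ht x v))
    (mul_nonneg hc (fe_nonneg E B t x))

theorem bal_nonneg (h : IsClassicalSolution T f E B) {t : ℝ} (ht : t ∈ Ico 0 T) {φ : E3 → ℝ}
    (hφ : ∀ v, 0 ≤ φ v) {c : ℝ} (hc : 0 ≤ c) (x₀ : E3) (R : ℝ) : 0 ≤ bal φ c x₀ R f E B t :=
  integral_nonneg (den_nonneg h ht hφ hc)

theorem continuousOn_den (h : IsClassicalSolution T f E B) {b : ℝ} (hb : b ∈ Ico 0 T)
    {φ : E3 → ℝ} (hφ : Continuous φ) (c : ℝ) :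
    ContinuousOn (fun y : ℝ × E3 => den φ c f E B y.1 y.2) (Icc 0 b ×ˢ univ) := by
  obtain ⟨R, hR⟩ := h.exists_support hb
  have hs : (Icc 0 b ×ˢ univ : Set (ℝ × E3)) ⊆ Ico 0 T ×ˢ univ :=
    prod_mono (Icc_subset_Ico_right hb.2) (subset_refl _)
  refine ContinuousOn.add ?_ (continuousOn_const.mul
    ((((h.E_contDiff.continuousOn.mono hs).norm.pow 2).add
      ((h.B_contDiff.continuousOn.mono hs).norm.pow 2)).div_const 2))
  refine continuousOn_integral_of_compact_support (f := fun (y : ℝ × E3) v => φ v * f y.1 y.2 v)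
    (isCompact_closedBall (0 : E3) R) ?_ ?_
  · refine (hφ.comp continuous_snd).continuousOn.mul ?_
    exact h.f_contDiff.continuousOn.comp (f := fun z : (ℝ × E3) × E3 => (z.1.1, z.1.2, z.2))
      (by fun_prop) fun z hz => ⟨(hs hz.1).1, mem_univ _⟩
  · intro y v hy hv
    rw [hR y.1 hy.1 (y.2, v) fun k => hv k.2, mul_zero]

theorem continuous_den (h : IsClassicalSolution T f E B) {t : ℝ} (ht : t ∈ Ico 0 T)
    {φ : E3 → ℝ} (hφ : Continuous φ) (c : ℝ) : Continuous (den φ c f E B t) :=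
  (continuousOn_den h ht hφ c).comp_continuous (f := fun x : E3 => (t, x)) (by fun_prop)
    fun _ => ⟨⟨ht.1, le_rfl⟩, mem_univ _⟩

theorem continuousOn_bal (h : IsClassicalSolution T f E B) {b : ℝ} (hb : b ∈ Ico 0 T)
    {φ : E3 → ℝ} (hφ : Continuous φ) (c : ℝ) (x₀ : E3) (R : ℝ) :
    ContinuousOn (bal φ c x₀ R f E B) (Icc 0 b) := by
  rw [continuousOn_iff_continuous_domRestrict]
  exact continuous_parametric_integral_of_continuous (μ := volume)
    (f := fun (s : Icc (0 : ℝ) b) x => den φ c f E B s x)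
    ((continuousOn_den h hb hφ c).comp_continuous
      (f := fun z : Icc (0 : ℝ) b × E3 => ((z.1 : ℝ), z.2)) (by fun_prop)
      fun z => ⟨z.1.2, mem_univ _⟩) (isCompact_closedBall x₀ R)

theorem integral_mul_den (h : IsClassicalSolution T f E B) {t : ℝ} (ht : t ∈ Ico 0 T)
    {θ φ : E3 → ℝ} (hθ : Continuous θ) (hc : HasCompactSupport θ) (hφ : Continuous φ) :
    ∫ x, θ x * den φ 1 f E B t x =
      kint (fun z => θ z.1 * φ z.2) f t + ∫ x, θ x * fe E B t x := by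
  have i1 : Integrable fun x => θ x * den φ 0 f E B t x :=
    (hθ.mul (continuous_den h ht hφ 0)).integrable_of_hasCompactSupport
      (HasCompactSupport.mul_right hc)
  have i2 : Integrable fun x => θ x * fe E B t x :=
    (hθ.mul (continuous_fe h ht)).integrable_of_hasCompactSupport (HasCompactSupport.mul_right hc)
  simp only [den, zero_mul, add_zero] at i1
  rw [kint_prod h ht hθ hφ, ← integral_add i1 i2]
  simp only [den, one_mul, mul_add]

theorem ball_le {D θ : E3 → ℝ} (hD : Continuous D) (h0 : ∀ x, 0 ≤ D x) (hθ : Continuous θ)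
    (hc : HasCompactSupport θ) (hθ0 : ∀ x, 0 ≤ θ x) {x₀ : E3} {R k : ℝ}
    (hk : ∀ x ∈ closedBall x₀ R, k ≤ θ x) :
    k * ∫ x in closedBall x₀ R, D x ≤ ∫ x, θ x * D x := by
  have i1 : Integrable fun x => θ x * D x :=
    (hθ.mul hD).integrable_of_hasCompactSupport (HasCompactSupport.mul_right hc)
  rw [← integral_const_mul]
  refine le_trans (setIntegral_mono_on ?_ i1.integrableOn isClosed_closedBall.measurableSet
    fun x hx => mul_le_mul_of_nonneg_right (hk x hx) (h0 x))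
    (setIntegral_le_integral i1 (ae_of_all _ fun x => mul_nonneg (hθ0 x) (h0 x)))
  exact (continuous_const.mul hD).continuousOn.integrableOn_compact (isCompact_closedBall x₀ R)

theorem le_ball {D G : E3 → ℝ} (hD : Continuous D) (hG : Continuous G) {x₀ : E3} {R : ℝ}
    (h1 : ∀ x, G x ≤ D x) (h2 : ∀ x, x ∉ closedBall x₀ R → G x = 0) :
    ∫ x, G x ≤ ∫ x in closedBall x₀ R, D x := by
  rw [← setIntegral_eq_integral_of_forall_compl_eq_zero h2]
  exact setIntegral_mono (hG.continuousOn.integrableOn_compact (isCompact_closedBall x₀ R))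
    (hD.continuousOn.integrableOn_compact (isCompact_closedBall x₀ R)) h1

/-! ### cut-offs -/

theorem exists_cut : ∃ C : ℝ, 0 < C ∧ ∀ (x₀ : E3) (ρ : ℝ), 0 < ρ → ∃ χ : E3 → ℝ,
    ContDiff ℝ 1 χ ∧ HasCompactSupport χ ∧ (∀ x, 0 ≤ χ x) ∧ (∀ x, χ x ≤ 1) ∧
    (∀ x ∈ closedBall x₀ ρ, χ x = 1) ∧
    (∀ x, x ∉ closedBall x₀ (2 * ρ) → χ x = 0 ∧ fderiv ℝ χ x = 0) ∧
    ∀ x, ‖fderiv ℝ χ x‖ ≤ C / ρ := by
  let φ : ContDiffBump (0 : E3) := ⟨1, 2, one_pos, one_lt_two⟩
  have hφ : ContDiff ℝ 1 φ := φ.contDiff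
  obtain ⟨C, hC⟩ := (φ.hasCompactSupport.fderiv (𝕜 := ℝ)).exists_bound_of_continuous
    (hφ.continuous_fderiv one_ne_zero)
  have hC0 : 0 ≤ C := (norm_nonneg _).trans (hC 0)
  refine ⟨C + 1, by linarith, fun x₀ ρ hρ => ?_⟩
  have hn : ∀ x : E3, ‖ρ⁻¹ • (x - x₀)‖ = dist x x₀ / ρ := fun x => by
    rw [norm_smul, norm_inv, Real.norm_of_nonneg hρ.le, dist_eq_norm, div_eq_inv_mul]
  have hz : ∀ x, x ∉ closedBall x₀ (2 * ρ) → φ (ρ⁻¹ • (x - x₀)) = 0 := fun x hx => by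
    apply φ.zero_of_le_dist
    rw [dist_zero_right, hn, le_div_iff₀ hρ]
    exact (not_le.1 hx).le
  refine ⟨fun x => φ (ρ⁻¹ • (x - x₀)),
    hφ.comp ((contDiff_id.sub contDiff_const).const_smul ρ⁻¹),
    HasCompactSupport.intro (isCompact_closedBall x₀ (2 * ρ)) hz, fun x => φ.nonneg,
    fun x => φ.le_one, fun x hx => ?_, fun x hx => ⟨hz x hx, ?_⟩, fun x => ?_⟩
  · apply φ.one_of_mem_closedBall
    rw [mem_closedBall_zero_iff, hn, div_le_iff₀ hρ]
    exact hx.trans (one_mul ρ).ge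
  · have : (fun x => φ (ρ⁻¹ • (x - x₀))) =ᶠ[𝓝 x] fun _ => (0 : ℝ) := by
      filter_upwards [isClosed_closedBall.isOpen_compl.mem_nhds hx] with y hy
      exact hz y hy
    rw [this.fderiv_eq, fderiv_const_apply]
  · have h1 : HasFDerivAt (fun x : E3 => φ (ρ⁻¹ • (x - x₀)))
        ((fderiv ℝ φ (ρ⁻¹ • (x - x₀))).comp (ρ⁻¹ • ContinuousLinearMap.id ℝ E3)) x :=
      HasFDerivAt.comp (g := φ) x (hφ.differentiable one_ne_zero _).hasFDerivAt
        (((hasFDerivAt_id x).sub_const x₀).const_smul ρ⁻¹)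
    rw [h1.fderiv]
    refine (ContinuousLinearMap.opNorm_comp_le _ _).trans ?_
    have h2 : ‖ρ⁻¹ • ContinuousLinearMap.id ℝ E3‖ ≤ ρ⁻¹ := by
      rw [norm_smul, norm_inv, Real.norm_of_nonneg hρ.le]
      exact mul_le_of_le_one_right (by positivity) ContinuousLinearMap.norm_id_le
    rw [div_eq_mul_inv]
    exact mul_le_mul ((hC _).trans (by linarith)) h2 (norm_nonneg _) (by linarith)

/-! ### the multiplier -/

/-- the radial profile -/
def gm (x₀ : E3) (R : ℝ) (x : E3) : ℝ := (√(R ^ 2 + ‖x - x₀‖ ^ 2))⁻¹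

/-- the Morawetz vector field -/
def am (x₀ : E3) (R : ℝ) (x : E3) : E3 := gm x₀ R x • (x - x₀)

variable {x₀ : E3} {R : ℝ}

theorem gm_pos (hR : 0 < R) (x : E3) : 0 < gm x₀ R x := by
  unfold gm
  positivity

theorem gm_sq (hR : 0 < R) (x : E3) : gm x₀ R x ^ 2 * (R ^ 2 + ‖x - x₀‖ ^ 2) = 1 := by
  unfold gm
  rw [inv_pow, Real.sq_sqrt (by positivity), inv_mul_cancel₀ (by positivity)]

theorem contDiff_gm (hR : 0 < R) : ContDiff ℝ 1 (gm x₀ R) :=
  ((contDiff_const.add ((contDiff_id.sub contDiff_const).norm_sq ℝ)).sqrt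
    fun x => by positivity).inv fun x => by positivity

theorem contDiff_am (hR : 0 < R) : ContDiff ℝ 1 (am x₀ R) :=
  (contDiff_gm hR).smul (contDiff_id.sub contDiff_const)

theorem fderiv_gm (hR : 0 < R) (x y : E3) :
    fderiv ℝ (gm x₀ R) x y = -(gm x₀ R x ^ 3 * ⟪x - x₀, y⟫) := by
  have h1 := ((contDiff_gm (x₀ := x₀) hR).differentiable one_ne_zero x).hasFDerivAt
  have h2 : HasFDerivAt (fun x => gm x₀ R x ^ 2 * (R ^ 2 + ‖x - x₀‖ ^ 2)) _ x :=
    (h1.pow 2).mul (((hasFDerivAt_id x).sub_const x₀).norm_sq.const_add (R ^ 2))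
  simp only [gm_sq hR] at h2
  have h3 := congrArg (fun L : E3 →L[ℝ] ℝ => L y) (h2.unique (hasFDerivAt_const 1 x))
  simp only [add_apply, smul_apply, zero_apply, ContinuousLinearMap.comp_apply, id,
    ContinuousLinearMap.id_apply, innerSL_apply_apply, smul_eq_mul, nsmul_eq_mul,
    Nat.cast_ofNat, Nat.add_one_sub_one, pow_one] at h3
  have h4 := gm_sq (x₀ := x₀) hR x
  linear_combination (gm x₀ R x / 2) * h3 - fderiv ℝ (gm x₀ R) x y * h4

theorem fderiv_smul_apply {χ : E3 → ℝ} {a : E3 → E3} (hχ : ContDiff ℝ 1 χ) (ha : ContDiff ℝ 1 a)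
    (x y : E3) : fderiv ℝ (fun x => χ x • a x) x y =
      χ x • fderiv ℝ a x y + fderiv ℝ χ x y • a x := by
  have k : HasFDerivAt (fun x => χ x • a x) _ x :=
    (hχ.differentiable one_ne_zero x).hasFDerivAt.smul (ha.differentiable one_ne_zero x).hasFDerivAt
  rw [k.fderiv]
  rfl

theorem hasFDerivAt_shift (x₀ x : E3) :
    HasFDerivAt (fun x : E3 => x - x₀) (ContinuousLinearMap.id ℝ E3) x :=
  (hasFDerivAt_id x).sub_const x₀

theorem inner_fderiv_am (hR : 0 < R) (x y : E3) : ⟪fderiv ℝ (am x₀ R) x y, y⟫ =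
    gm x₀ R x * ‖y‖ ^ 2 - gm x₀ R x ^ 3 * ⟪x - x₀, y⟫ ^ 2 := by
  have := fderiv_smul_apply (contDiff_gm (x₀ := x₀) hR)
    (a := fun x => x - x₀) (contDiff_id.sub contDiff_const) x y
  have h2 : fderiv ℝ (fun x : E3 => x - x₀) x y = y := by
    rw [(hasFDerivAt_shift x₀ x).fderiv]
    rfl
  unfold am
  rw [this, h2, fderiv_gm hR, inner_add_left, real_inner_smul_left, real_inner_smul_left,
    real_inner_self_eq_norm_sq]
  ring

theorem div_am (hR : 0 < R) (x : E3) :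
    div (am x₀ R) x = 3 * gm x₀ R x - gm x₀ R x ^ 3 * ‖x - x₀‖ ^ 2 := by
  have := div_smul (contDiff_gm (x₀ := x₀) hR)
    (F := fun x => x - x₀) (contDiff_id.sub contDiff_const) x
  unfold am
  rw [this, fderiv_gm hR, real_inner_self_eq_norm_sq, div_eq (hasFDerivAt_shift x₀ x)]
  simp
  ring

theorem norm_am_le (hR : 0 < R) (x : E3) : ‖am x₀ R x‖ ≤ 1 := by
  have h1 := gm_sq (x₀ := x₀) hR x
  have h2 := gm_pos (x₀ := x₀) hR x
  rw [am, norm_smul, Real.norm_of_nonneg h2.le]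
  refine abs_le_one_iff_mul_self_le_one.2 ?_ |> (le_abs_self _).trans
  nlinarith [sq_nonneg (gm x₀ R x * R)]

theorem le_inner_am (hR : 0 < R) (x y : E3) :
    R ^ 2 * gm x₀ R x ^ 3 * ‖y‖ ^ 2 ≤ ⟪fderiv ℝ (am x₀ R) x y, y⟫ := by
  have h1 := gm_sq (x₀ := x₀) hR x
  have h2 := gm_pos (x₀ := x₀) hR x
  have h3 : ⟪x - x₀, y⟫ ^ 2 ≤ ‖x - x₀‖ ^ 2 * ‖y‖ ^ 2 := by
    rw [← mul_pow, ← sq_abs]
    exact pow_le_pow_left₀ (abs_nonneg _) (abs_real_inner_le_norm _ _) 2
  have h4 := mul_le_mul_of_nonneg_left h3 (pow_pos h2 3).le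
  rw [inner_fderiv_am hR]
  have h5 : gm x₀ R x * ‖y‖ ^ 2 = R ^ 2 * gm x₀ R x ^ 3 * ‖y‖ ^ 2 +
      gm x₀ R x ^ 3 * (‖x - x₀‖ ^ 2 * ‖y‖ ^ 2) := by
    linear_combination (-(gm x₀ R x * ‖y‖ ^ 2)) * h1
  linarith

theorem le_stress_am (hR : 0 < R) (x F : E3) :
    R ^ 2 * gm x₀ R x ^ 3 * (‖F‖ ^ 2 / 2) ≤ stress (am x₀ R) x F := by
  have h1 := gm_sq (x₀ := x₀) hR x
  have h2 := mul_nonneg (pow_pos (gm_pos (x₀ := x₀) hR x) 3).le (sq_nonneg ⟪x - x₀, F⟫)
  rw [stress, inner_fderiv_am hR, div_am hR]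
  have h5 : gm x₀ R x * ‖F‖ ^ 2 = R ^ 2 * gm x₀ R x ^ 3 * ‖F‖ ^ 2 +
      gm x₀ R x ^ 3 * (‖x - x₀‖ ^ 2 * ‖F‖ ^ 2) := by
    linear_combination (-(gm x₀ R x * ‖F‖ ^ 2)) * h1
  linarith

theorem le_weight (hR : 0 < R) {x : E3} (hx : x ∈ closedBall x₀ R) :
    1 / (3 * R) ≤ R ^ 2 * gm x₀ R x ^ 3 := by
  have h1 := gm_sq (x₀ := x₀) hR x
  have h2 := gm_pos (x₀ := x₀) hR x
  have h3 : ‖x - x₀‖ ^ 2 ≤ R ^ 2 := pow_le_pow_left₀ (norm_nonneg _) (by
    rwa [← dist_eq_norm]) 2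
  have h4 : 1 ≤ 2 * (R * gm x₀ R x) ^ 2 := by nlinarith [sq_nonneg (gm x₀ R x)]
  have h5 : 0 < R * gm x₀ R x := mul_pos hR h2
  have h6 : 7 / 10 ≤ R * gm x₀ R x := by nlinarith
  rw [div_le_iff₀ (by positivity)]
  nlinarith

/-! ### the estimate -/

section Cut

variable {χ : E3 → ℝ} {δ : ℝ}

theorem abs_form_le (hδ : ∀ x, ‖fderiv ℝ χ x‖ ≤ δ) (x y : E3) : |fderiv ℝ χ x y| ≤ δ * ‖y‖ :=
  (fderiv ℝ χ x).le_of_opNorm_le (hδ x) y

theorem abs_inner_le {a : E3} (ha : ‖a‖ ≤ 1) (y : E3) : |⟪a, y⟫| ≤ ‖y‖ :=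
  (abs_real_inner_le_norm _ _).trans (mul_le_of_le_one_left (norm_nonneg _) ha)

theorem kin_cut (hR : 0 < R) (hχ : ContDiff ℝ 1 χ) (h0 : ∀ x, 0 ≤ χ x)
    (hδ : ∀ x, ‖fderiv ℝ χ x‖ ≤ δ) (x v : E3) :
    χ x * (R ^ 2 * gm x₀ R x ^ 3) * (‖v‖ ^ 2 / q v) + -δ * q v ≤
      ⟪fderiv ℝ (fun x => χ x • am x₀ R x) x (u v), v⟫ := by
  have hδ0 : 0 ≤ δ := (norm_nonneg _).trans (hδ x)
  have h1 := mul_le_mul_of_nonneg_left (le_inner_am (x₀ := x₀) hR x v)
    (mul_nonneg (h0 x) (inv_pos.2 (q_pos v)).le)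
  have h2 : |fderiv ℝ χ x (u v) * ⟪am x₀ R x, v⟫| ≤ δ * q v := by
    rw [abs_mul]
    refine mul_le_mul ((abs_form_le hδ x _).trans ?_)
      ((abs_inner_le (norm_am_le hR x) v).trans (norm_lt_q v).le) (abs_nonneg _) hδ0
    exact mul_le_of_le_one_right hδ0 (norm_u_lt_one v).le
  rw [fderiv_smul_apply hχ (contDiff_am hR), inner_add_left, real_inner_smul_left,
    real_inner_smul_left]
  nth_rewrite 1 [u]
  rw [map_smul, real_inner_smul_left, div_eq_mul_inv]
  linarith [(abs_le.1 h2).1]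

theorem stress_cut (hR : 0 < R) (hχ : ContDiff ℝ 1 χ) (h0 : ∀ x, 0 ≤ χ x)
    (hδ : ∀ x, ‖fderiv ℝ χ x‖ ≤ δ) (x F : E3) :
    χ x * (R ^ 2 * gm x₀ R x ^ 3) * (‖F‖ ^ 2 / 2) - 3 * δ * (‖F‖ ^ 2 / 2) ≤
      stress (fun x => χ x • am x₀ R x) x F := by
  have hδ0 : 0 ≤ δ := (norm_nonneg _).trans (hδ x)
  have h1 := mul_le_mul_of_nonneg_left (le_stress_am (x₀ := x₀) hR x F) (h0 x)
  have h2 : |fderiv ℝ χ x F * ⟪am x₀ R x, F⟫| ≤ δ * ‖F‖ * ‖F‖ := by
    rw [abs_mul]
    exact mul_le_mul (abs_form_le hδ x _) (abs_inner_le (norm_am_le hR x) F) (abs_nonneg _)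
      (by positivity)
  have h3 : |fderiv ℝ χ x (am x₀ R x)| ≤ δ :=
    (abs_form_le hδ x _).trans (mul_le_of_le_one_right hδ0 (norm_am_le hR x))
  have h4 := mul_le_mul_of_nonneg_left (abs_le.1 h3).1 (by positivity : 0 ≤ ‖F‖ ^ 2 / 2)
  unfold stress at h1 ⊢
  rw [fderiv_smul_apply hχ (contDiff_am hR), inner_add_left, real_inner_smul_left,
    real_inner_smul_left, div_smul hχ (contDiff_am hR)]
  linarith [(abs_le.1 h2).2]

theorem abs_mom_le (h : IsClassicalSolution T f E B) {t : ℝ} (ht : t ∈ Ico 0 T) {a : E3 → E3}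
    (ha : Continuous a) (h1 : ∀ x, ‖a x‖ ≤ 1) : |mom a f E B t| ≤ energy0 f E B := by
  have k1 := abs_kint_le h ht (ψ := fun z => ⟪a z.1, z.2⟫) (by fun_prop) (c := 1) fun z => by
    rw [one_mul]
    exact (abs_inner_le (h1 _) _).trans (norm_lt_q _).le
  have k2 := abs_integral_le h ht (G := fun x => ⟪a x, cross (E t x) (B t x)⟫) (c := 1) fun x => by
    rw [one_mul]
    exact (abs_inner_le (h1 _) _).trans (norm_cross_le_fe E B t x)
  refine (abs_add_le _ _).trans ?_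
  unfold fmom
  linarith [en_le h ht]

/-- the kinetic weight of the Morawetz estimate -/
def kw (v : E3) : ℝ := ‖v‖ ^ 2 / q v

theorem kw_nonneg (v : E3) : 0 ≤ kw v := div_nonneg (sq_nonneg _) (q_pos v).le

theorem continuous_kw : Continuous kw :=
  (continuous_norm.pow 2).div continuous_q fun v => (q_pos v).ne'

theorem le_deriv_mom (h : IsClassicalSolution T f E B) {t : ℝ} (ht : t ∈ Ico 0 T) (hR : 0 < R)
    (hχ : ContDiff ℝ 1 χ) (hc : HasCompactSupport χ) (h0 : ∀ x, 0 ≤ χ x)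
    (h1 : ∀ x ∈ closedBall x₀ R, χ x = 1) (hδ : ∀ x, ‖fderiv ℝ χ x‖ ≤ δ) :
    1 / (3 * R) * bal kw 1 x₀ R f E B t - 3 * δ * energy0 f E B ≤
      kint (fun z => ⟪fderiv ℝ (fun x => χ x • am x₀ R x) z.1 (u z.2), z.2⟫) f t +
        ((∫ x, stress (fun x => χ x • am x₀ R x) x (E t x)) +
          ∫ x, stress (fun x => χ x • am x₀ R x) x (B t x)) := by
  have hδ0 : 0 ≤ δ := (norm_nonneg _).trans (hδ 0)
  have ha : ContDiff ℝ 1 fun x => χ x • am x₀ R x := hχ.smul (contDiff_am hR)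
  have hs : HasCompactSupport fun x => χ x • am x₀ R x :=
    hc.mono fun x hx k => hx (by simp only [k, zero_smul])
  set θ : E3 → ℝ := fun x => χ x * (R ^ 2 * gm x₀ R x ^ 3) with hθ
  have cθ : Continuous θ :=
    hχ.continuous.mul (continuous_const.mul ((contDiff_gm hR).continuous.pow 3))
  have sθ : HasCompactSupport θ := HasCompactSupport.mul_right hc
  have k1 := ball_le (continuous_den h ht continuous_kw 1)
    (den_nonneg h ht kw_nonneg zero_le_one) cθ sθ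
    (fun x => mul_nonneg (h0 x) (mul_pos (by positivity) (pow_pos (gm_pos hR x) 3)).le)
    (x₀ := x₀) (R := R) (k := 1 / (3 * R)) fun x hx => by
      simp only [hθ, h1 x hx, one_mul]
      exact le_weight hR hx
  rw [integral_mul_den h ht cθ sθ continuous_kw] at k1
  have c1 : Continuous fun z : E3 × E3 => θ z.1 * kw z.2 :=
    (cθ.comp continuous_fst).mul (continuous_kw.comp continuous_snd)
  have c2 : Continuous fun z : E3 × E3 => -δ * q z.2 :=
    continuous_const.mul (continuous_q.comp continuous_snd)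
  have k2 := kint_mono h ht (ψ := fun z => θ z.1 * kw z.2 + -δ * q z.2) (c1.add c2)
    (φ := fun z => ⟪fderiv ℝ (fun x => χ x • am x₀ R x) z.1 (u z.2), z.2⟫)
    ((((ha.continuous_fderiv one_ne_zero).comp continuous_fst).clm_apply
      (continuous_u.comp continuous_snd)).inner continuous_snd)
    fun z => kin_cut hR hχ h0 hδ z.1 z.2
  rw [kint_add h ht c1 c2, kint_q] at k2
  have i1 : Integrable fun x => stress (fun x => χ x • am x₀ R x) x (E t x) :=
    (continuous_stress ha (h.E_slice ht).continuous).integrable_of_hasCompactSupport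
      (stress_support hs)
  have i2 : Integrable fun x => stress (fun x => χ x • am x₀ R x) x (B t x) :=
    (continuous_stress ha (h.B_slice ht).continuous).integrable_of_hasCompactSupport
      (stress_support hs)
  have i3 : Integrable fun x => θ x * fe E B t x :=
    (cθ.mul (continuous_fe h ht)).integrable_of_hasCompactSupport (HasCompactSupport.mul_right sθ)
  have i4 : Integrable fun x => 3 * δ * fe E B t x := (integrable_fe h ht).const_mul _
  have k3 : ∫ x, (θ x * fe E B t x - 3 * δ * fe E B t x) ≤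
      ∫ x, (stress (fun x => χ x • am x₀ R x) x (E t x) +
        stress (fun x => χ x • am x₀ R x) x (B t x)) :=
    integral_mono (i3.sub i4) (i1.add i2) fun x => by
      have e1 := stress_cut (x₀ := x₀) hR hχ h0 hδ x (E t x)
      have e2 := stress_cut (x₀ := x₀) hR hχ h0 hδ x (B t x)
      simp only [hθ, fe]
      linarith
  rw [integral_sub i3 i4, integral_add i1 i2, integral_const_mul] at k3
  have k4 := mul_le_mul_of_nonneg_left (en_le h ht) hδ0
  have k5 := mul_nonneg hδ0 (h.kin_nonneg ht)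
  unfold bal
  linarith

end Cut

/-- **The Morawetz estimate.** -/
theorem morawetz (h : IsClassicalSolution T f E B) {b : ℝ} (hb : b ∈ Ico 0 T) (x₀ : E3)
    (hR : 0 < R) : ∫ t in (0 : ℝ)..b, bal kw 1 x₀ R f E B t ≤ 6 * R * energy0 f E B := by
  obtain ⟨C, hC, H⟩ := exists_cut
  have hsub : Icc 0 b ⊆ Ico 0 T := Icc_subset_Ico_right hb.2
  have cb := continuousOn_bal h hb continuous_kw 1 x₀ R
  have ib : IntervalIntegrable (bal kw 1 x₀ R f E B) volume 0 b :=
    cb.intervalIntegrable_of_Icc hb.1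
  have key : ∀ N : ℝ, R ≤ N → 1 / (3 * R) * ∫ t in (0 : ℝ)..b, bal kw 1 x₀ R f E B t ≤
      2 * energy0 f E B + 3 * C * energy0 f E B * b / N := fun N hN => by
    obtain ⟨χ, hχ, hc, h0, h1, h2, -, hδ⟩ := H x₀ N (hR.trans_le hN)
    have ha : ContDiff ℝ 1 fun x => χ x • am x₀ R x := hχ.smul (contDiff_am hR)
    have hs : HasCompactSupport fun x => χ x • am x₀ R x :=
      hc.mono fun x hx k => hx (by simp only [k, zero_smul])
    have hn : ∀ x, ‖χ x • am x₀ R x‖ ≤ 1 := fun x => by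
      rw [norm_smul, Real.norm_of_nonneg (h0 x)]
      exact mul_le_one₀ (h1 x) (norm_nonneg _) (norm_am_le hR x)
    have ca := ha.continuous
    have k := intervalIntegral.integral_le_sub_of_hasDeriv_right_of_le hb.1
      (g := mom (fun x => χ x • am x₀ R x) f E B)
      (φ := fun t => 1 / (3 * R) * bal kw 1 x₀ R f E B t - 3 * (C / N) * energy0 f E B)
      ((continuousOn_kint h hb ((ca.comp continuous_fst).inner continuous_snd)).add ((continuousOn_fmom h ca hs).mono hsub))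
      (fun t ht => (hasDerivAt_mom h ha hs ⟨ht.1, ht.2.trans hb.2⟩).hasDerivWithinAt)
      (((continuousOn_const.mul cb).sub continuousOn_const).integrableOn_compact isCompact_Icc)
      fun t ht => le_deriv_mom h (hsub (Ioo_subset_Icc_self ht)) hR hχ hc h0
        (fun x hx => h2 x (closedBall_subset_closedBall hN hx)) hδ
    rw [intervalIntegral.integral_sub (ib.const_mul _) intervalIntegrable_const,
      intervalIntegral.integral_const_mul, intervalIntegral.integral_const, smul_eq_mul] at k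
    have e : 3 * C * energy0 f E B * b / N = (b - 0) * (3 * (C / N) * energy0 f E B) := by ring
    linarith [(abs_le.1 (abs_mom_le h hb ca hn)).2,
      (abs_le.1 (abs_mom_le h (hsub ⟨le_rfl, hb.1⟩) ca hn)).1]
  have lim : Tendsto (fun N : ℝ => 2 * energy0 f E B + 3 * C * energy0 f E B * b / N) atTop
      (𝓝 (2 * energy0 f E B + 0)) :=
    tendsto_const_nhds.add (tendsto_const_nhds.div_atTop tendsto_id)
  have := ge_of_tendsto lim ((eventually_ge_atTop R).mono key)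
  rw [one_div, inv_mul_le_iff₀ (by positivity)] at this
  linarith

end Vale.Agent.N107
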