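import Vale.Agent.N107.Decay
import Vale.Agent.P107.H706.Energy

/-!
# P107: the local quantities in coordinates
-/

open MeasureTheory Set

namespace Vale.Agent.N107

open P107

theorem bal_ff (ψ : RVM.V3 → ℝ) (c : ℝ) (x₀ : RVM.V3) (R : ℝ) (f : ℝ → RVM.V3 → RVM.V3 → ℝ)
    (E B : ℝ → RVM.V3 → RVM.V3) (t : ℝ) :
    bal (fun v => ψ (coo v)) c (coo.symm x₀) R (ff f) (FF E) (FF B) t =
      ∫ x in {x | RVM.len (x - x₀) ≤ R}, ((∫ v, ψ v * f t x v) +
        c * ((RVM.len (E t x) ^ 2 + RVM.len (B t x) ^ 2) / 2)) := by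
  have e : Metric.closedBall (coo.symm x₀) R = coo ⁻¹' {x | RVM.len (x - x₀) ≤ R} := by
    ext x
    rw [Metric.mem_closedBall, dist_eq_norm, ← len_coo, map_sub, coo.apply_symm_apply]
    rfl
  rw [← mp_coo.setIntegral_preimage_emb me_coo, ← e]
  refine integral_congr_ae (ae_of_all _ fun x => ?_)
  simp only [den, fe, ← len_coo, coo_FF]
  rw [← integral_coo fun v => ψ v * f t (coo x) v]
  rfl

theorem energy0_ff {f : ℝ → RVM.V3 → RVM.V3 → ℝ} {E B : ℝ → RVM.V3 → RVM.V3}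
    (h : ∀ T, 0 < T → RVM.IsClassicalSolution T f E B) :
    energy0 (ff f) (FF E) (FF B) = RVM.totalEnergy f E B 0 :=
  (RVM.H706.totalEnergy_ff (h 1 one_pos) ⟨le_rfl, one_pos⟩).symm

theorem q_eq : q = fun v => RVM.q (coo v) := funext fun v => (q_coo v).symm

theorem kw_eq : kw = fun v => RVM.len (coo v) ^ 2 / RVM.q (coo v) :=
  funext fun v => by rw [len_coo, q_coo, kw]

end Vale.Agent.N107
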